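import Crest.Agent.X212.Cut63.Up
import Crest.Agent.X212.Tms63.Main
import Crest.Agent.X212.M.Scn

/-!
# Row 212, CT-CUT (helper63): the fields of the cuts converge along scenes
-/

set_option autoImplicit false
set_option linter.unusedSectionVars false
noncomputable section
open scoped Manifold ContDiff Topology InnerProductSpace
open Set Function Filter

namespace Crest.Agent.X212.Cut63
open An An.Job M Wrd81 Cmp73 Eqv71 Shi84 Tms63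

variable {Wi : Type} {X : Mf 4} {A κ lam : Type} [Fintype A] [Fintype κ] [Fintype lam]
  [DecidableEq lam] {M : Mark X A κ} {W : World M} {N : ML M lam} {Λ : Lns W N} {A' h : Type}
  [Fintype A'] [DecidableEq A'] [Fintype h] {r n : ℕ} {J : Job Wi Λ A' h r n}
  {Adm : (Wi →₀ ℝ) → Prop} {α : Type} {c c₀ : M.Cl} {F : Fam J α c c₀}

theorem lk_zero {l : Filter α} {Y : α → Type} [∀ i, NormedAddCommGroup (Y i)]
    [∀ i, NormedSpace ℝ (Y i)] {Y₀ : Type} [NormedAddCommGroup Y₀] [NormedSpace ℝ Y₀]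
    {R : ∀ i, CL (Y i) Y₀} {T : ∀ i, CL (Y i) (Y i)} {T₀ : CL Y₀ Y₀} {z : α → ℝ} {z₀ : ℝ}
    (h : ∀ i, z i = 0) (h₀ : z₀ = 0) : Lk l R (fun i => z i • T i) (z₀ • T₀) := by
  simp only [h, h₀, zero_smul]
  exact .zero

theorem tc_eq {P Q Q' : Type} (t : Tp P Q lam lam) (t' : Tp P Q' lam lam) (T : Tc P lam r) :
    (t.tc T).m = (t'.tc T).m ∧ (t.tc T).n = (t'.tc T).n ∧ (t.tc T).w = (t'.tc T).w :=
  ⟨rfl, rfl, rfl⟩

/-- the family is uniform where a coefficient does not vanish -/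
theorem exists_ut (hJ : J.OK) {V : Set A} {f : (A' → ℝ) → ℝ} (hV : ∃ s₀ < (1 : ℝ), ∀ σ ∈ J.𝒦,
    ∀ s ∈ J.dom σ, ∀ a x, J.hd a = some x → x ∈ V → s₀ ≤ s a → f s = 0) (c : M.Cl) :
    ∃ K, Ut (W.φ c '' (M.sys.cores (J.hw \ V))ᶜ) (Λ.G J.m c) K ∧
      ∀ s, Fin37.Pm J c s → f s ≠ 0 → J.Θ s ∈ K := by
  obtain ⟨s₀, h3, h4⟩ := hV
  have hU : ∀ p ∈ J.Θ '' Pv J c V s₀, ∀ z ∈ W.φ c '' (M.sys.cores (J.hw \ V))ᶜ,
      (p, z) ∈ M.Ω c.1 (W.φ c) := by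
    rintro _ ⟨s, ⟨b1, b2, b3⟩, rfl⟩ _ ⟨x, hx, rfl⟩
    obtain ⟨σ, b4, b5⟩ := mem_iUnion₂.1 b1
    simp only [mem_iInter, mem_ofPred_eq] at b2 b3
    refine W.mem_Ω_of_br ⟨hJ.par σ b4 s (J.cl_dom b5), b3⟩ fun k => hx
      (biUnion_subset_biUnion_left (fun y hy => ?_) k)
    obtain ⟨a, b6, b7⟩ := hJ.inf σ b4 s (J.cl_dom b5) y hy
    exact ⟨⟨a, b6⟩, fun hV => (b7.symm.trans_le (b2 a y b6 hV)).not_gt h3⟩
  refine ⟨_, ut (Λ.Λ J.m c) W.isOpen_Ω ((isCompact_Pv hJ c V s₀).image hJ.sm.continuous) hU,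
    fun s ⟨σ, b1, b2, b3⟩ b4 => ⟨mem_image_of_mem _ ⟨mem_biUnion b1 b2, ?_,
      mem_biInter fun x hx => b3.ge hx⟩, Mark.mem_Ω (W.φ c) (hJ.memO b1 ⟨J.cl_dom b2, b3⟩)⟩⟩
  simpa only [mem_iInter, mem_ofPred_eq] using fun a x k1 k2 =>
    le_of_not_ge fun k3 => b4 (h4 σ b1 s (J.cl_dom b2) a x k1 k2 k3)

theorem forall₂_mem {β γ δ : Type} {R : γ → δ → Prop} {f : β → γ} {g : β → δ} {l : List β}
    (h : ∀ a ∈ l, R (f a) (g a)) : List.Forall₂ R (l.map f) (l.map g) :=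
  List.forall₂_map_left_iff.2 (List.forall₂_map_right_iff.2 (List.forall₂_same.2 h))

theorem cpt_σ (q : Wi →₀ ℝ) (s : A' → ℝ) (e : h) (x : Cfg (W.Z c).M (Option κ) (lam ⊕ lam) r) :
    IsCompactOperator (J.σc c q s e x) :=
  Hol14.cpt_sum q.support (A := fun w => (q w * J.cc e w s) •
    x.tc (J.B c) (J.G c s).F (J.cut c e) ((J.tp c).tc (J.tc e w)))
    fun w _ => (Hol14.cpt_tc ((J.tp c).tc (J.tc e w))).smul (q w * J.cc e w s)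

variable (k : F.OK Adm) (hJ : J.OK) {S : F.Sc} (hS : S.OK)
  {b : Cfg (W.Z c₀).M (Option κ) (lam ⊕ lam) r} {u : ∀ i, (W.Z c₀).M → CL (S.x i).m.V b.m.V}
  {e : h}

include hS in
theorem lit_f {f : X.M → ℝ} (hf : Tf X.I (M.sys.cores c₀.1)ᶜ f) (i : α) :
    EqOn (S.t.f f ∘ S.g.ψ i) ((J.tp c₀).f f) S.g.Pᶜ := fun y hy =>
  tendsto_nhds_unique (tendsto_const_nhds (x := S.t.f f (S.f y)))
    ((hS.tk.fk hS.up.bk.ok S.x hf).cv.pt y hy)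

include hS in
theorem lit_s {f : X.M → Eu (lam ⊕ lam)} (hf : Tv X.I (M.sys.cores c₀.1)ᶜ f) (i : α) {y}
    (hy : y ∈ S.g.Pᶜ) : S.t.s f (S.g.ψ i y) = (J.tp c₀).s f y :=
  tendsto_nhds_unique (tendsto_const_nhds (x := S.t.s f (S.f y)))
    ((hS.tk.fs hS.up.bk.ok S.x hf).cv.pt y hy)

include k hJ hS

theorem ck (l : S.g.LB S.x b u) (he : e ∈ J.unc c₀) (hH : ∀ i, e ∈ (F.y i).H)
    (hd : Disjoint (J.cut c₀ e).supp S.E) :
    CK (J.cut c₀ e) b S.up u (fun _ => S.t.cut (J.ct e)) fun _ => J.cut c e := by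
  have s : J.nb e ⊆ (M.sys.cores c₀.1)ᶜ := he.subset_compl_right
  have i := (hJ.nb e).2
  have f : ∀ {g}, Tf X.I (J.nb e) g → Tf X.I (M.sys.cores c₀.1)ᶜ g :=
    fun t => ⟨t.sm, t.hcs, t.sub.trans s⟩
  refine ⟨hS.up, l, hJ.ct _ k.mem _ (fam_ov k).1 c₀ k.inf _ he, fun j => hJ.ct _ k.mem _
    (k.sol j).ov.1 c (k.sol j).inf _ ((k.sol j).sub (hH j)), fun j =>
    ⟨hd.subset_compl_right.trans Gs.sub_S, fun θ t => hS.pt _ (s (i.sub ⟨(θ, t), rfl⟩)),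
      forall₂_mem fun d hd => ⟨lit_f hS (f (i.w d hd).1) j, lit_f hS (f (i.w d hd).2.1) j,
        lit_f hS (f (i.w d hd).2.2) j⟩,
      forall₂_mem fun d hd => ⟨fun x hx => ?_, lit_f hS (f (i.e d hd).2.1) j,
        lit_f hS (f (i.e d hd).2.2) j⟩⟩,
    fun _ => hS.rel.cut fun x hx => ⟨trivial, ?_⟩, hd.subset_compl_right⟩
  · have t := (i.e d hd).1
    rw [trn_l hS.up.bk.ok.B₀]
    exact congrArg _ (lit_s hS ⟨t.sm, t.hcs, t.sub.trans s⟩ j hx)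
  · rw [hS.pt x (s (i.sub hx))]
    exact (hS.jf.e x (s (i.sub hx))).1.symm

variable (H : CK (J.cut c₀ e) b S.up u (fun _ => S.t.cut (J.ct e)) fun _ => J.cut c e)
include H

theorem xl_xi {w : Wi} (h0 : ∀ i, J.cc e w (F.y i).s ≠ 0) :
    XL (h := S.up) (J.cut c₀ e) u (fun i => (F.y i).x.xi (J.G c (F.y i).s).F
      ((J.tp c).xi (J.tc e w).ξ) (J.cut c e).x0)
      (b.xi (J.G c₀ F.s₀).F ((J.tp c₀).xi (J.tc e w).ξ) (J.cut c₀ e).x0) := by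
  obtain ⟨V, h1, h2⟩ := hJ.tc e w
  obtain ⟨K, u1, u2⟩ := exists_ut hJ h2 c
  obtain ⟨s₁, h2, h3⟩ := h2
  have sub : (M.sys.cores (J.hw \ V))ᶜ ⊆ (M.sys.cores c₀.1)ᶜ := fun x =>
    Mark.cores_mono (σ' := J.hw \ V) fun a ha => ⟨hJ.sub_hw k.mem (fam_ov k) ha, fun hv =>
      let ⟨a', e1, e2⟩ := hJ.inf _ k.mem _ (fam_ov k).1 a (k.inf.ge ha)
      let ⟨i, hi⟩ := ((((continuous_apply a').tendsto _).comp k.s).eventually
        (lt_mem_nhds (h2.trans_eq e2.symm))).exists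
      h0 i (h3 _ k.mem _ (k.sol i).ov.1 a' a e1 hv hi.le)⟩
  have tk : TK S.g (fun _ => S.t) (J.tp c₀) (M.sys.cores (J.hw \ V))ᶜ :=
    ⟨fun u hu => hS.tk.f u ⟨hu.sm, hu.hcs, hu.sub.trans sub⟩,
      fun u hu => hS.tk.s u ⟨hu.sm, hu.hcs, hu.sub.trans sub⟩⟩
  have hg := hS.up.bk.ok
  obtain ⟨i₀⟩ := F.l.neBot.nonempty
  have ti := (hJ.tp_in k.mem (k.sol i₀).ov fun x hx => Mark.cores_mono k.sub (sub hx)).xi h1
  generalize (J.tc e w).ξ = ξ at h1 ti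
  cases ξ with
  | one => exact ⟨fun _ => 1, tendsto_const_nhds, .of_forall fun _ => Cnt93.It.one⟩
  | aw ξ =>
    obtain ⟨s, C, p⟩ := k.bd
    obtain ⟨m, hm⟩ := (u1.ev_sd (W.L J.m c).F0 ti.1).exists
    exact H.xl_aw (hS.wr fun _ => (J.cut c e).x0) (tk.aw hg S.x h1) (fun _ => hS.rel.aw _)
      (fun _ => AwIn.ok _ ti) fun i => Abel74.sdB_le (p i).g.lh (p i).g.wts
        (zero_le_one.trans (p i).g.le.one) (p i).g.le.int (p i).g.le.F (AwIn.ok _ ti).1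
        (hm _ (u2 _ ⟨_, k.mem, (k.sol i).cell, (k.sol i).inf⟩ (h0 i))) _
  | qj d s a a' l =>
    exact H.xl_qj (tk.co hg S.x h1.1) (tk.fs hg S.x h1.2.1).toFC (tk.sw hg S.x h1.2.2.1)
      (tk.sw hg S.x h1.2.2.2.1) (tk.ll hg S.x h1.2.2.2.2) (fun _ => hS.rel.co _)
      (fun _ => hS.rel.s _) (fun _ => hS.rel.sw _) (fun _ => hS.rel.sw _) (fun _ => hS.rel.ll _)
      (fun _ => ti.ok _) fun _ => tmZ_in (n := 0) (T := .anti _ _ _) (by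
        rintro _ ⟨y, hy, rfl⟩; exact ⟨_, (hS.jf.e y (sub hy)).1⟩) ⟨ti.1, ti.2.1, ti.2.2.1⟩

theorem lk_w {w : Wi} (hw : ∀ i j, J.cc e w (F.y i).s = 0 → J.cc e w (F.y j).s = 0) :
    Lk S.g.l (Rr (h := S.up) (J.cut c₀ e) u fun _ => J.cut c e)
      (fun i => (F.q i w * J.cc e w (F.y i).s) • (S.up.y i).tc (S.up.B i) (S.up.G i).F
        (J.cut c e) ((J.tp c).tc (J.tc e w)))
      ((F.q₀ w * J.cc e w F.s₀) • b.tc S.g.B₀ S.g.G₀.F (J.cut c₀ e)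
        ((J.tp c₀).tc (J.tc e w))) := by
  have t := ((hJ.cc e w).continuous.tendsto _).comp k.s
  by_cases h0 : ∃ i, J.cc e w (F.y i).s = 0
  · have a := fun j => hw _ j h0.choose_spec
    have a' : J.cc e w F.s₀ = 0 := tendsto_nhds_unique t (by
      simpa only [comp_def, a] using tendsto_const_nhds)
    exact lk_zero (fun i => by rw [a, mul_zero]) (by rw [a', mul_zero])
  push Not at h0
  exact H.lk_tc (t := fun _ => (J.tp c).tc (J.tc e w)) (t₀ := (J.tp c₀).tc (J.tc e w))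
    (fun _ => (tc_eq _ _ _).1) (fun _ => (tc_eq _ _ _).2.1) (fun _ => (tc_eq _ _ _).2.2)
    (xl_xi k hJ hS H h0)
    ((k.cv.choose_spec.2 w).mul t)

theorem lk_σ : Lk F.l (Rr (h := S.up) (J.cut c₀ e) u fun _ => J.cut c e)
    (fun i => J.σc c (F.q i) (F.y i).s e (F.y i).x) (J.σc c₀ F.q₀ F.s₀ e b) := by
  obtain ⟨T, h0, h1⟩ := k.co
  have a : ∀ {q : Wi →₀ ℝ}, (∀ w ∉ T, q w = 0) → ∀ c s x, J.σc c q s e x = ∑ w ∈ T,
      (q w * J.cc e w s) • x.tc (J.B c) (J.G c s).F (J.cut c e) ((J.tp c).tc (J.tc e w)) :=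
    fun hq c s x => Finsupp.sum_of_support_subset _ (fun w hw => by_contra fun t =>
      Finsupp.mem_support_iff.1 hw (hq w t)) _ fun _ _ => by rw [zero_mul, zero_smul]
  rw [a fun w hw => (h0 w hw).1, funext fun i => a (fun w hw => (h0 w hw).2 i) c _ _]
  exact .fsum T fun w hw => lk_w k hJ hS H fun i j => (h1 w hw i j).2 e

omit k hS H in
/-- **CUT** -/
theorem cut (Adm : (Wi →₀ ℝ) → Prop) : CUT J Adm := fun _ _ _ _ k _ hS _ _ l _ he hH hd =>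
  have H := ck k hJ hS l.lb he hH hd
  H.lim (lk_σ k hJ hS H) (cpt_σ _ _ _ _)
    fun i => (k.sol i).cut _ (hH i)

end Crest.Agent.X212.Cut63
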