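import Crest.Agent.X212.Csm97.Cut
import Crest.Agent.X212.Loc66.Fcv
import Crest.Agent.X212.Cnt93.Pt

/-!
# Row 212, CT-CUT (helper63), part 1: the symbol of a cut along converging frames
-/

set_option autoImplicit false
set_option linter.unusedSectionVars false
noncomputable section
open scoped Manifold ContDiff Topology InnerProductSpace
open Set Function Filter Module

namespace Crest.Agent.X212.Cut63
open An Csm97 Cmp73 Met55
open Loc66 (FCv VCv)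
open Wz78 (SA)

theorem pa_sum {R β : Type} [NormedRing R] [NormedAlgebra ℝ R] [Fintype β] (v : β → ℝ)
    (A p' q' : β → R) (p q : R) : pa (∑ b, v b • A b) p (∑ b, v b • p' b) q (∑ b, v b • q' b) =
      ∑ b, v b • pa (A b) p (p' b) q (q' b) := by
  have e : pa1 (∑ b, v b • A b) p (∑ b, v b • p' b) = ∑ b, v b • pa1 (A b) p (p' b) := by
    simp only [pa1, smul_add, smul_sub, Finset.sum_add_distrib, Finset.sum_sub_distrib, mul_add,
      mul_sub, Finset.mul_sum, Finset.sum_mul, mul_smul_comm, smul_mul_assoc]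
  simp only [pa, e, smul_add, smul_sub, Finset.sum_add_distrib, Finset.sum_sub_distrib, mul_add,
    mul_sub, Finset.mul_sum, Finset.sum_mul, mul_smul_comm, smul_mul_assoc, Finset.smul_sum,
    smul_comm (1 / 2 : ℝ)]

variable {E : Type} [NormedAddCommGroup E] [NormedSpace ℝ E] [FiniteDimensional ℝ E]
  [MeasurableSpace E] [BorelSpace E]
  {HM : Type} [TopologicalSpace HM] {I : ModelWithCorners ℝ E HM} [I.Boundaryless]
  {M : Type} [TopologicalSpace M] [ChartedSpace HM M] [IsManifold I ∞ M]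
  [MeasurableSpace M] [BorelSpace M] [SecondCountableTopology M] {ι : Type} [Fintype ι]
  {lam : Type} [Fintype lam] {N : Type} [NormedAddCommGroup N] [NormedSpace ℝ N]
  {k : Cut M lam} {B : Base M ι lam} {m : Md M ι lam} {α : Type} {l : Filter α} {O : Set M}

theorem tl_fT (F : Fr I M ι) (X : VF I M) (x : M) (a : ι) : Num57.tl F x a (X x) = fT F.e X x a := by
  obtain ⟨c, hc⟩ := Num57.exists_comb F x (X x)
  rw [fT, hc, Num57.tl_comb]
  refine Eq.trans ?_ (congrFun (th_sum (b := finBasis ℝ E) (v := atx F.e x) c) a).symm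
  simp only [fr_P, fP, Matrix.mulVec, dotProduct]

theorem vel_eq (F F₀ : Fr I M ι) (θ : Ci) (s : ℝ) (a : ι) :
    k.vel F θ s a = ∑ b, k.vel F₀ θ s b * fT F.e (F₀.e b) (k.γ θ s) a := by
  rw [Cut.vel, ← (Num57.cf F₀ (k.γ θ s)).ex (mfderiv 𝓘(ℝ, ℝ) I (k.γ θ) s (1 : ℝ)), map_sum]
  exact Finset.sum_congr rfl fun b _ => by rw [map_smul, ← tl_fT]; rfl

variable (k B m) in
/-- the corrected connection as a one-form in the frame `F₀` -/
def Om (F F₀ : Fr I M ι) (W : m.Cn) (b : ι) (x : M) : En (Fin m.N) :=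
  pa (∑ a, fT F.e (F₀.e b) x a • W a x) (k.pi B F m x) (F₀.D b (k.pi B F m) x) (k.qu B F m x)
    (F₀.D b (k.qu B F m) x)

theorem A2_om (h : Dat I k) {F : Fr I M ι} (F₀ : Fr I M ι) (W : m.Cn) {θ : Ci} {s : ℝ}
    (hp : SA I (k.pi B F m) (k.γ θ s)) (hq : SA I (k.qu B F m) (k.γ θ s)) :
    k.A2 B F m W θ s = ∑ b, k.vel F₀ θ s b • Om k B m F F₀ W b (k.γ θ s) := by
  rw [A2_eq, (h.der F₀ hp.md).deriv, (h.der F₀ hq.md).deriv]
  simp only [Om, ← pa_sum, vel_eq F F₀, Finset.sum_smul, Finset.smul_sum, smul_smul]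
  rw [Finset.sum_comm]

theorem cv_lsum {β : Type} (L : List β) {f : β → α → M → N} {g : β → M → N}
    (h : ∀ t ∈ L, Cv I l O (f t) (g t)) :
    Cv I l O (fun n x => (L.map fun t => f t n x).sum) fun x => (L.map fun t => g t x).sum := by
  induction L with
  | nil => exact Cv.const 0
  | cons a L ih =>
    simp only [List.map_cons, List.sum_cons]
    exact (h a (by simp)).add (ih fun b hb => h b (by simp [hb]))

theorem cv_pa {R : Type} [NormedRing R] [NormedAlgebra ℝ R] {A p p' q q' : α → M → R}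
    {A₀ p₀ p₀' q₀ q₀' : M → R} (hA : Cv I l O A A₀) (hp : Cv I l O p p₀) (hp' : Cv I l O p' p₀')
    (hq : Cv I l O q q₀) (hq' : Cv I l O q' q₀') :
    Cv I l O (fun n x => pa (A n x) (p n x) (p' n x) (q n x) (q' n x))
      fun x => pa (A₀ x) (p₀ x) (p₀' x) (q₀ x) (q₀' x) := by
  have h : Cv I l O (fun n x => pa1 (A n x) (p n x) (p' n x)) fun x => pa1 (A₀ x) (p₀ x) (p₀' x) :=
    hA.add (((hp.const_smul 2).sub (.const 1)).mul (hp'.add ((hA.mul hp).sub (hp.mul hA))))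
  exact h.sub ((hq.mul (hq'.add ((h.mul hq).sub (hq.mul h)))).const_smul _)

theorem c2_sum {v : ι → Ci → ℝ → ℝ} {u : ι → Ci → ℝ → N} {A : Ci → ℝ → N}
    (hv : ∀ b, Continuous (uncurry (v b))) (hu : ∀ b, Continuous (uncurry (u b)))
    (e : ∀ θ s, A θ s = ∑ b, v b θ s • u b θ s) : Continuous (uncurry A) ∧
      c2 A = ∑ b, bilC (ContinuousLinearMap.lsmul ℝ ℝ) (c2 (v b)) (c2 (u b)) :=
  ⟨(continuous_finsetSum _ fun b _ => (hv b).smul (hu b)).congr fun z => (e z.1 z.2).symm,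
    cm_eq fun z => by
      rw [e, ContinuousMap.sum_apply]
      exact Finset.sum_congr rfl fun b _ => by
        rw [bilC_apply, c2_apply (hv b), c2_apply (hu b)]; rfl⟩

variable [l.NeBot] {F : α → Fr I M ι} {F₀ : Fr I M ι} (hB : B.OK I) (H : m.OK I B) (h : Dat I k)
  (hO : IsOpen O) (hF : FCv l O F F₀)

section
include hB hO hF

theorem cv_dd {g g' : M → ℝ} (hg : Sm I g) (hg' : Sm I g') :
    Cv I l O (fun n => B.dd (F n) g g') (B.dd F₀ g g') :=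
  (Cv.pi (w := fun n x (s : ι × ι) => ∑ t, B.sd x s t * ((F n).D t.1 g x * (F n).D t.2 g' x))
    fun s => Cv.sum fun t => (Cv.fixed' (sm_sd hB s t)).mul
      ((hF.D hO (.fixed' hg) _).mul (hF.D hO (.fixed' hg') _))).clm
    ((PiLp.continuousLinearEquiv 2 ℝ fun _ : ι × ι => ℝ).symm : CL _ (Eu (ι × ι)))

include h

theorem cv_om : Cv I l O (fun n => k.om B (F n)) (k.om B F₀) :=
  cv_lsum k.w fun t ht => (Cv.fixed' (h.sw t ht).1).smul
    (cv_dd hB hO hF (h.sw t ht).2.1 (h.sw t ht).2.2)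

end

include H in
theorem cv_c2 {w : α → M → Eu (ι × ι)} {w₀ : M → Eu (ι × ι)} (hw : Cv I l O w w₀) :
    Cv I l O (fun n x => m.c2 x (w n x)) fun x => m.c2 x (w₀ x) :=
  Cv.sum fun u => (hw.clm (EuclideanSpace.proj u)).smul
    ((Cv.fixed' (H.sρ u.1)).mul (.fixed' (H.sρ u.2)))

include hB H h hO hF

theorem cv_pi (ho : ∀ x ∈ O, k.om B F₀ x ≠ 0) :
    Cv I l O (fun n => k.pi B (F n) m) (k.pi B F₀ m) :=
  ((Cv.fixed' (Wz78.sm_pp H hB)).sub (((cv_om hB h hO hF).post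
    (Φ := fun w : Eu (ι × ι) => (2 * ‖w‖)⁻¹) fun x hx => (eventually_ne_nhds (ho x hx)).mono
      fun _ hw => (contDiffAt_const.mul (contDiffAt_norm ℝ hw)).inv
        (mul_ne_zero two_ne_zero (norm_ne_zero_iff.2 hw))).smul
    ((Cv.const m.J).mul (cv_c2 H (cv_om hB h hO hF))))).const_smul _

theorem cv_q0 (ho : ∀ x ∈ O, k.om B F₀ x ≠ 0) :
    Cv I l O (fun n => k.q0 B (F n) m) (k.q0 B F₀ m) :=
  ((cv_pi hB H h hO hF ho).mul (cv_lsum k.e fun t ht =>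
    (cv_c2 H (cv_dd hB hO hF (h.se t ht).2.1 (h.se t ht).2.2)).mul
      ((Cv.fixed' H.sj).app (.fixed' (h.se t ht).1)))).mul (cv_pi hB H h hO hF ho)

theorem cv_qu (ho : ∀ x ∈ O, k.om B F₀ x ≠ 0) (hq : ∀ x ∈ O, k.q0 B F₀ m x ≠ 0) :
    Cv I l O (fun n => k.qu B (F n) m) (k.qu B F₀ m) :=
  (((cv_q0 hB H h hO hF ho).clm hsL).post (Φ := fun w : m.A => 2 / ‖w‖) fun x hx =>
    (eventually_ne_nhds fun e => hq x hx (by
      rw [← Wz78.opL_hsL (k.q0 B F₀ m x), e, map_zero])).mono fun w hw =>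
        contDiffAt_const.div (contDiffAt_norm ℝ hw) (norm_ne_zero_iff.2 hw)).smul
    (cv_q0 hB H h hO hF ho)

theorem cv_Om (ho : ∀ x ∈ O, k.om B F₀ x ≠ 0) (hq : ∀ x ∈ O, k.q0 B F₀ m x ≠ 0) {W : α → m.Cn}
    {W₀ : m.Cn} (hW : ∀ a, Cv I l O (fun n => W n a) (W₀ a)) (b : ι) :
    Cv I l O (fun n => Om k B m (F n) F₀ (W n) b) (Om k B m F₀ F₀ W₀ b) :=
  cv_pa (Cv.sum fun a => (hF.fT hO (VCv.fixed (F₀.sm b)) a).smul (hW a)) (cv_pi hB H h hO hF ho)
    ((cv_pi hB H h hO hF ho).D hO F₀.toPre b) (cv_qu hB H h hO hF ho hq)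
    ((cv_qu hB H h hO hF ho hq).D hO F₀.toPre b)

omit hB H hF in
/-- uniform convergence along the paths -/
theorem tendsto_c2 [FiniteDimensional ℝ N] (hs : k.supp ⊆ O) {f : α → M → N} {g : M → N}
    (hf : Cv I l O f g) :
    Tendsto (fun n => c2 fun θ s => f n (k.γ θ s)) l (𝓝 (c2 fun θ s => g (k.γ θ s))) := by
  refine Metric.tendsto_nhds.2 fun ε hε => ?_
  filter_upwards [hf.mb.smooth h.isCompact_supp hs, hf.unif hO h.isCompact_supp hs hε] with n h3 h4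
  rw [ContinuousMap.dist_lt_iff hε]
  intro z
  rw [c2_apply (h.cont_on fun x hx => (h3 x hx).continuousAt.continuousWithinAt),
    c2_apply (h.cont_on fun x hx => (hf.smoothAt hO (hs hx)).continuousAt.continuousWithinAt),
    dist_eq_norm]
  exact h4 _ ⟨(_, _), rfl⟩

omit hB H hO hF in
theorem c2_om {G : Fr I M ι} {W : m.Cn} (hp : ∀ x ∈ k.supp, SA I (k.pi B G m) x)
    (hq : ∀ x ∈ k.supp, SA I (k.qu B G m) x) (ho : ∀ b, ∀ x ∈ k.supp, SA I (Om k B m G F₀ W b) x) :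
    Continuous (uncurry (k.A2 B G m W)) ∧ c2 (k.A2 B G m W) =
      ∑ b, bilC (ContinuousLinearMap.lsmul ℝ ℝ) (c2 fun θ s => k.vel F₀ θ s b)
        (c2 fun θ s => Om k B m G F₀ W b (k.γ θ s)) := by
  exact c2_sum (h.vel_cont F₀)
    (fun b => h.cont_on fun x hx => (ho b x hx).continuousAt.continuousWithinAt)
    fun θ s => A2_om h F₀ W (hp _ ⟨(θ, s), rfl⟩) (hq _ ⟨(θ, s), rfl⟩)

omit h in
/-- **the symbols converge** -/
theorem sym_cv (hk : k.OK B F₀) (hs : k.supp ⊆ O) {W : α → m.Cn} {W₀ : m.Cn}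
    (hW : ∀ a, Cv I l O (fun n => W n a) (W₀ a)) :
    (∀ᶠ n in l, (∀ x ∈ k.supp, SA I (k.pi B (F n) m) x ∧ SA I (k.qu B (F n) m) x) ∧
      Continuous (uncurry (k.A2 B (F n) m (W n))) ∧ Continuous (k.sym B (F n) m (W n))) ∧
    Tendsto (fun n => cm (k.sym B (F n) m (W n))) l (𝓝 (cm (k.sym B F₀ m W₀))) ∧
    Tendsto (fun n => k.pi B (F n) m k.x0) l (𝓝 (k.pi B F₀ m k.x0)) := by
  have h := dat hk
  have o1 : IsOpen (O ∩ k.om B F₀ ⁻¹' {0}ᶜ) := hO.inter (isOpen_compl_singleton.preimage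
    (continuous_iff_continuousAt.2 fun x => (Cnt93.sa_om hB hk).continuousAt))
  have o2 : IsOpen ((O ∩ k.om B F₀ ⁻¹' {0}ᶜ) ∩ k.q0 B F₀ m ⁻¹' {0}ᶜ) :=
    ContinuousOn.isOpen_inter_preimage (fun x hx =>
      (Cnt93.sa_q0 hB hk H hx.2).continuousAt.continuousWithinAt) o1 isOpen_compl_singleton
  have s : k.supp ⊆ (O ∩ k.om B F₀ ⁻¹' {0}ᶜ) ∩ k.q0 B F₀ m ⁻¹' {0}ᶜ := by
    rintro _ ⟨z, rfl⟩
    exact ⟨⟨hs ⟨z, rfl⟩, hk.om _ _⟩, hk.q0 m H _ _⟩
  have hF' := hF.mono le_rfl (inter_subset_left.trans inter_subset_left :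
    (O ∩ k.om B F₀ ⁻¹' {0}ᶜ) ∩ k.q0 B F₀ m ⁻¹' {0}ᶜ ⊆ O)
  have p := cv_pi hB H h o2 hF' fun _ hx => hx.1.2
  have q := cv_qu hB H h o2 hF' (fun _ hx => hx.1.2) fun _ hx => hx.2
  have w := cv_Om hB H h o2 hF' (fun _ hx => hx.1.2) (fun _ hx => hx.2)
    fun a => (hW a).mono le_rfl (inter_subset_left.trans inter_subset_left)
  have K := h.isCompact_supp
  have e0 := c2_om (F₀ := F₀) h (fun x hx => p.smoothAt o2 (s hx)) (fun x hx => q.smoothAt o2 (s hx))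
    fun b x hx => (w b).smoothAt o2 (s hx)
  have e1 := (p.mb.smooth K s).and ((q.mb.smooth K s).and
    (eventually_all.2 fun b => (w b).mb.smooth K s))
  have e2 := e1.mono fun n hn => c2_om (F₀ := F₀) h hn.1 hn.2.1 hn.2.2
  have sy : ∀ {G : Fr I M ι} {W : m.Cn}, Continuous (uncurry (k.A2 B G m W)) → ∀ θ,
      Sy (m.pp B k.x0) (c2 (k.A2 B G m W)) (k.pi B G m k.x0) θ = k.sym B G m W θ :=
    fun hc θ => by rw [Sy_apply, Hol_trp hc, Hol_trp hc]; rfl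
  have t1 : Tendsto (fun n => c2 (k.A2 B (F n) m (W n))) l (𝓝 (c2 (k.A2 B F₀ m W₀))) := by
    rw [e0.2]
    exact (tendsto_finsetSum _ fun b _ => ((bilC _ _).continuous.tendsto _).comp
      (tendsto_c2 h o2 s (w b))).congr' (e2.mono fun n hn => hn.2.symm)
  have t2 := p.pt k.x0 (s ⟨(0, 0), rfl⟩)
  refine ⟨(e1.and e2).mono fun n hn => ⟨fun x hx => ⟨hn.1.1 x hx, hn.1.2.1 x hx⟩, hn.2.1,
    funext (sy hn.2.1) ▸ ContinuousMap.continuous _⟩, ?_, t2⟩
  rw [cm_eq (sy e0.1)]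
  have c := contDiffOn_univ.1 (contDiffOn_Sy (m.pp B k.x0) (O := univ)
    (X := C(II × Ci, En (Fin m.N)) × En (Fin m.N)) contDiffOn_fst contDiffOn_snd)
  exact ((c.continuous.tendsto (_, _)).comp (t1.prodMk_nhds t2)).congr'
    (e2.mono fun n hn => (cm_eq (sy hn.1)).symm)

end Crest.Agent.X212.Cut63
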