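import Crest.Agent.X212.Cut63.Up

/-!
# Row 212, CT-CUT (helper63), part 5: cuts along `Gs.Lim`
-/

set_option autoImplicit false
set_option linter.unusedSectionVars false
noncomputable section
open scoped Manifold ContDiff Topology InnerProductSpace NNReal
open Set Function Filter

namespace Crest.Agent.X212.Cut63
open An Eqv71 Wz78 Cnt93 Cmp73 Csm97

theorem Lk.iw {α : Type} {l : Filter α} {X : α → Type} [∀ i, NormedAddCommGroup (X i)]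
    [∀ i, NormedSpace ℝ (X i)] {Y : Type} [NormedAddCommGroup Y] [NormedSpace ℝ Y]
    {R : ∀ i, CL (X i) Y} {A : ∀ i, CL (X i) (X i)} {A₀ : CL Y Y} (h : Lk l R A A₀)
    (hR : ∀ᶠ i in l, ∀ v, ‖R i v‖ = ‖v‖) :
    Tendsto (fun i => ‖A₀ ∘L R i - R i ∘L A i‖) l (𝓝 0) := by
  obtain ⟨T, a, e⟩ := h
  refine squeeze_zero' (.of_forall fun _ => norm_nonneg _) ((e.and hR).mono fun i hi => ?_)
    (tendsto_iff_norm_sub_tendsto_zero.1 a)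
  refine ContinuousLinearMap.opNorm_le_bound _ (norm_nonneg _) fun v => ?_
  rw [norm_sub_rev, ← hi.2 v]
  refine le_trans (le_of_eq ?_) ((A₀ - T i).le_opNorm (R i v))
  simp [hi.1]

variable {E : Type} [NormedAddCommGroup E] [NormedSpace ℝ E] [FiniteDimensional ℝ E]
  [MeasurableSpace E] [BorelSpace E]
  {HM : Type} [TopologicalSpace HM] {I : ModelWithCorners ℝ E HM} [I.Boundaryless]
  {E₀ : Type} [NormedAddCommGroup E₀] [NormedSpace ℝ E₀] [FiniteDimensional ℝ E₀]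
  [MeasurableSpace E₀] [BorelSpace E₀]
  {H₀ : Type} [TopologicalSpace H₀] {I₀ : ModelWithCorners ℝ E₀ H₀} [I₀.Boundaryless]
  {M : Type} [TopologicalSpace M] [ChartedSpace H₀ M] [IsManifold I₀ ∞ M] [MeasurableSpace M]
  [T2Space M] [BorelSpace M] [SecondCountableTopology M]
  {ι lam : Type} [Fintype ι] [Fintype lam] {r : ℕ} {α : Type}
  {X : α → Type} [∀ n, TopologicalSpace (X n)] [∀ n, ChartedSpace HM (X n)]
  [∀ n, IsManifold I ∞ (X n)] [∀ n, MeasurableSpace (X n)] [∀ n, T2Space (X n)]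
  [∀ n, BorelSpace (X n)] [∀ n, SecondCountableTopology (X n)]
  {g : Gs I I₀ M ι lam X} {c : ∀ n, Cfg (X n) ι lam r} {b : Cfg M ι lam r} {S : Set M}
  {u : ∀ n, M → CL (c n).m.V b.m.V} {k : ∀ n, Cut (X n) lam} {k₀ : Cut M lam}

variable (g c b S u k k₀) in
/-- cuts along a converging family -/
structure GK : Prop where
  hg : g.OK
  ha : ∀ n, (c n).Adm (g.B n) (g.G n)
  lim : g.Lim c b S u
  ok₀ : k₀.OK g.B₀ g.G₀.F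
  ok : ∀ᶠ n in (g.l : Filter α), (k n).OK (g.B n) (g.G n).F
  R : ∀ n, k₀.Rel (k n) g.Pᶜ (g.ψ n) g.B₀.l
  sub : k₀.supp ⊆ Sᶜ

variable (g u k k₀) in
/-- the gauges on the Hardy spaces -/
abbrev Rg (n : α) : CL ((k n).H (g.B n) (c n).m) (k₀.H g.B₀ b.m) := Uh _ _ _ _ (u n k₀.x0)

namespace GK
variable (H : GK g c b S u k k₀)
include H

theorem nr : ∀ᶠ n in (g.l : Filter α), ∀ y ∈ k₀.supp, g.Nr c b u n y :=
  ev_compact (dat H.ok₀).isCompact_supp fun _ hy => H.lim.nr H.hg H.ha (H.sub hy)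

section ev
variable {n : α} (q : ∀ y ∈ k₀.supp, g.Nr c b u n y)
include q

theorem hi' : HI (c n).m.J ((c n).m.pp (g.B n) (k n).x0) b.m.J (b.m.pp g.B₀ k₀.x0) (u n k₀.x0) := by
  have a := q k₀.x0 ⟨(0, 0), rfl⟩
  rw [show (k n).x0 = g.ψ n k₀.x0 from (H.R n).γ 0 0]
  exact hi_of_me a.me a.be (H.hg.B n) H.hg.B₀ (H.ha n).ok H.lim.adm.ok

theorem norm' (a : (k n).H (g.B n) (c n).m) : ‖Rg g u k k₀ n a‖ = ‖a‖ :=
  (H.hi' q).norm (fun w hw => (congrArg (fun T : En _ => T w) (q k₀.x0 ⟨(0, 0), rfl⟩).me.uu).trans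
    (by rw [← hw, show (k n).x0 = g.ψ n k₀.x0 from (H.R n).γ 0 0]
        exact Eqv71.p_pp (H.ha n).ok _ _)) a

theorem kp (θ : UnitAddCircle) (s : ℝ) : KP (g.B n) g.B₀ (k n) k₀ ((k n).γ θ s) (k₀.γ θ s)
    (g.G n).F (g.H n).F (fun b a => g.B₀.P b a (k₀.γ θ s)) (g.B₀.l (k₀.γ θ s)) (u n (k₀.γ θ s)) := by
  rw [(H.R n).γ]
  exact kp_nr H.hg (H.R n) (H.ha n).ok H.lim.adm.ok ((H.R n).sub ⟨(θ, s), rfl⟩) (q _ ⟨(θ, s), rfl⟩)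

end ev

/-- **R** -/
theorem hi : ∀ᶠ n in (g.l : Filter α),
    HI (c n).m.J ((c n).m.pp (g.B n) (k n).x0) b.m.J (b.m.pp g.B₀ k₀.x0) (u n k₀.x0) ∧
    (∀ v, ‖Rg g u k k₀ n v‖ = ‖v‖) ∧
    ∀ v, Rg g u k k₀ n (Hol14.JH _ _ v) = Hol14.JH _ _ (Rg g u k k₀ n v) :=
  H.nr.mono fun _ q => ⟨H.hi' q, H.norm' q, fun v => ((H.hi' q).cpr (T := LU _) (T' := LU _)
    (fun f => by rw [LU_LU, LU_LU, (H.hi' q).hJ]) v).symm⟩

theorem iso : ∀ᶠ n in (g.l : Filter α), ∀ v, ‖Rg g u k k₀ n v‖ = ‖v‖ := H.hi.mono fun _ a => a.2.1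

theorem cv : (∀ᶠ n in (g.l : Filter α), (∀ x ∈ k₀.supp, SA I₀ (k₀.pi g.B₀ (g.H n).F b.m) x ∧
      SA I₀ (k₀.qu g.B₀ (g.H n).F b.m) x) ∧
      Continuous (uncurry (k₀.A2 g.B₀ (g.H n).F b.m (g.tW c b u n))) ∧
      Continuous (k₀.sym g.B₀ (g.H n).F b.m (g.tW c b u n))) ∧
    Tendsto (fun n => cm (k₀.sym g.B₀ (g.H n).F b.m (g.tW c b u n))) g.l
      (𝓝 (cm (k₀.sym g.B₀ g.G₀.F b.m b.W))) ∧
    Tendsto (fun n => k₀.pi g.B₀ (g.H n).F b.m k₀.x0) g.l (𝓝 (k₀.pi g.B₀ g.G₀.F b.m k₀.x0)) :=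
  sym_cv H.hg.B₀ H.lim.adm.ok H.lim.op
    (fun a => ⟨fun k x _ => (H.hg.e a).mb k x, fun x _ => (H.hg.e a).pt x⟩) H.ok₀ H.sub H.lim.cW

theorem lk_T : Lk g.l (Rg g u k k₀) (fun n => (k n).T (g.B n) (g.G n).F (c n).m (c n).W)
    (k₀.T g.B₀ g.G₀.F b.m b.W) := by
  obtain ⟨c1, c2, -⟩ := H.cv
  have hg := H.hg
  have hb := H.lim.adm
  have c0 := sym_cont hg.B₀ hb.ok H.ok₀ (Hol14.cn0_of hb.conn).ct
  have e : ContinuousMap.const _ (b.m.p k₀.x0) * cm (k₀.sym g.B₀ g.G₀.F b.m b.W) =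
      cm (k₀.sym g.B₀ g.G₀.F b.m b.W) := ContinuousMap.ext fun θ => by
    rw [ContinuousMap.mul_apply, Csm97.cm_apply c0]
    exact p_sym hg.B₀ hg.G₀ H.ok₀ hb.ok hb.conn θ
  refine ⟨fun n => tpzL _ _ (ContinuousMap.const _ (b.m.p k₀.x0) *
    cm (k₀.sym g.B₀ (g.H n).F b.m (g.tW c b u n))), ?_,
    (c1.and (H.nr.and H.ok)).mono fun n ⟨⟨a1, a2, a3⟩, q, o⟩ a => ?_⟩
  · rw [Cut.T, ← tpzL_cm, ← e]
    exact ((tpzL _ _).continuous.tendsto _).comp (c2.const_mul _)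
  · have e' := cm_eq (g := fun θ => b.m.p k₀.x0 * k₀.sym g.B₀ (g.H n).F b.m (g.tW c b u n) θ)
      (G := ContinuousMap.const _ (b.m.p k₀.x0) * cm (k₀.sym g.B₀ (g.H n).F b.m (g.tW c b u n)))
      fun θ => by rw [ContinuousMap.mul_apply, Csm97.cm_apply a3]; rfl
    beta_reduce
    rw [← e', tpzL_cm]
    exact (H.hi' q).tpz (sym_it' (hg.B n) (hg.G n) o (H.ha n).ok (H.ha n).conn (dat H.ok₀) a1 a2
      (u1 := u n (k₀.γ 0 1)) (pr_nr hg (H.R n) H.ok₀ q) (fun θ s => (H.kp q θ s).pi)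
      (fun θ s => (H.kp q θ s).qu) (fun θ => by rw [H.ok₀.h0 θ 0 le_rfl])
      (fun θ => by rw [H.ok₀.h1 θ 1 le_rfl]) (H.kp q 0 0).me.uu' (H.kp q 0 1).me.uu
      ((H.kp q 0 0).me.pu (H.ha n).ok) (H.hi' q).hp) (iff_of_true (sym_cont (hg.B n) (H.ha n).ok o
      (Hol14.cn0_of (H.ha n).conn).ct) (continuous_const.mul a3)) a

theorem lk_frk {Ξ : ∀ n, En (Fin (c n).m.N)} {Ξ₁ Ξ₀ : En (Fin b.m.N)}
    (t : Tendsto (fun n => u n k₀.x0 ∘L Ξ n ∘L trn (u n k₀.x0)) g.l (𝓝 Ξ₁))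
    (e : Ξ₁ * b.m.p k₀.x0 = Ξ₀ * b.m.p k₀.x0) (i j : ℕ) (w : ℂ) :
    Lk g.l (Rg g u k k₀) (fun n => frk _ _ i j ((k n).pi (g.B n) (g.G n).F (c n).m (k n).x0 *
        csE (c n).m.J w * Ξ n * (k n).pi (g.B n) (g.G n).F (c n).m (k n).x0))
      (frk _ _ i j (k₀.pi g.B₀ g.G₀.F b.m k₀.x0 * csE b.m.J w * Ξ₀ * k₀.pi g.B₀ g.G₀.F b.m k₀.x0)) := by
  have a := H.cv.2.2
  rw [mul_assoc _ Ξ₀, ← p_pi k₀ H.lim.adm.ok, ← mul_assoc Ξ₀, ← e, mul_assoc Ξ₁,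
    p_pi k₀ H.lim.adm.ok]
  refine ⟨_, ((frkL _ _ i j).continuous.tendsto _).comp ((a.mul_const _).mul (t.mul a)),
    H.nr.mono fun n q v => (H.hi' q).frk ?_ i j v⟩
  have p := (H.kp q 0 0).pi
  rw [mul_assoc _ (Ξ n)]
  refine (p.mul ((H.hi' q).hJ.csE w)).mul (It.of fun z => ?_)
  have h1 := DFunLike.congr_fun (H.kp q 0 0).me.uu
  have h2 := DFunLike.congr_fun (p_pi (F := (g.G n).F) (x := (k n).x0) (k n) (H.ha n).ok) z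
  simp only [ContinuousLinearMap.comp_apply, mul_apply_eq_comp] at h1 h2 ⊢
  exact congrArg (fun y => u n k₀.x0 (Ξ n y)) ((congrArg _ (p.app z)).trans ((h1 _).trans h2))

/-- **T** -/
theorem T : Tendsto (fun n => ‖k₀.T g.B₀ g.G₀.F b.m b.W ∘L Rg g u k k₀ n -
    Rg g u k k₀ n ∘L (k n).T (g.B n) (g.G n).F (c n).m (c n).W‖) g.l (𝓝 0) := H.lk_T.iw H.iso

/-- **TC** -/
theorem tc {t : ∀ n, Tc (X n) lam r} {t₀ : Tc M lam r} (h1 : ∀ n, (t n).m = t₀.m)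
    (h2 : ∀ n, (t n).n = t₀.n) (h3 : ∀ n, (t n).w = t₀.w)
    (h : ∃ Ξ, Tendsto (fun n => u n k₀.x0 ∘L (c n).xi (g.G n).F (t n).ξ (k n).x0 ∘L trn (u n k₀.x0))
      g.l (𝓝 Ξ) ∧ Ξ * b.m.p k₀.x0 = b.xi g.G₀.F t₀.ξ k₀.x0 * b.m.p k₀.x0) :
    Tendsto (fun n => ‖b.tc g.B₀ g.G₀.F k₀ t₀ ∘L Rg g u k k₀ n -
      Rg g u k k₀ n ∘L (c n).tc (g.B n) (g.G n).F (k n) (t n)‖) g.l (𝓝 0) := by
  obtain ⟨Ξ, a, e⟩ := h
  simp only [Cfg.tc, h1, h2, h3]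
  exact (H.lk_frk a e _ _ _).iw H.iso

end GK

end Crest.Agent.X212.Cut63
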