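import Crest.Agent.X212.Cut63.Cv
import Crest.Agent.X212.Cnt93.Main
import Crest.Agent.X212.Hol14.Alg

/-!
# Row 212, CT-CUT (helper63), part 2: naturality along the paths; operators that converge
-/

set_option autoImplicit false
set_option linter.unusedSectionVars false
noncomputable section
open scoped Manifold ContDiff Topology InnerProductSpace
open Set Function Filter Finset

namespace Crest.Agent.X212.Cut63
open An Eqv71 Wz78 Cnt93

section pr
variable {κ κ' κ'' : Type} [Fintype κ] [Fintype κ'] [Fintype κ''] {A : ℝ → En κ} {A' : ℝ → En κ'}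
  {A'' : ℝ → En κ''} {u : ℝ → CL (Eu κ) (Eu κ')} {w : ℝ → CL (Eu κ') (Eu κ'')}

theorem pr_trans (h : PR A A' u) (k : PR A' A'' w) : PR A A'' fun s => w s ∘L u s := fun s =>
  ((k s).clm_comp (h s)).congr_deriv (ContinuousLinearMap.ext fun a => by simp)

theorem pr_trn (h : PR A A' u) (a : ∀ s, trn (A s) = -A s) (a' : ∀ s, trn (A' s) = -A' s) :
    PR A' A fun s => trn (u s) := fun s =>
  (trnL.hasFDerivAt.comp_hasDerivAt s (h s)).congr_deriv (by
    show trnL _ = _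
    rw [map_sub]
    show trn _ - trn _ = _
    rw [trn_comp, trn_comp, a, a', ContinuousLinearMap.neg_comp, ContinuousLinearMap.comp_neg]
    abel)

theorem sym_alg {P Q π pp p0 p1 : En κ} {P' Q' π' pp' p0' : En κ'} {u0 u1 : CL (Eu κ) (Eu κ')}
    (h1 : P' ∘L u0 = u1 ∘L P) (h2 : Q' ∘L u0 = u1 ∘L Q) (h3 : Q ∘L p0 = p1 ∘L Q)
    (a : u0 ∘L trn u0 = p0') (b : trn u1 ∘L u1 = p1) (c : p0' ∘L u0 = u0) (d : p0 * π = π)
    (e : It u0 π π') (f : It u0 pp pp') :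
    It u0 (trn P * Q * π + (pp - π)) (p0' * (trn P' * Q' * π' + (pp' - π'))) := by
  have k : ∀ v, p0' (trn P' (u1 v)) = u0 (trn P (p1 v)) := fun v => by
    have := congrArg (fun T => u0 (trn T (u1 v))) h1
    simp only [trn_comp, ContinuousLinearMap.comp_apply] at this
    rw [← a, ← b]
    exact this
  have q := fun v => DFunLike.congr_fun h2 v
  have r := fun v => DFunLike.congr_fun h3 v
  have s := fun v => DFunLike.congr_fun c v
  have t := fun v => DFunLike.congr_fun d v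
  simp only [ContinuousLinearMap.comp_apply, mul_apply_eq_comp] at q r s t
  refine It.of fun v => ?_
  simp only [mul_apply_eq_comp, add_apply, sub_apply, map_add, map_sub, e.app, f.app, q, k, ← r, t, s]

end pr

variable {E : Type} [NormedAddCommGroup E] [NormedSpace ℝ E] [FiniteDimensional ℝ E]
  [MeasurableSpace E] [BorelSpace E]
  {HM : Type} [TopologicalSpace HM] {I : ModelWithCorners ℝ E HM} [I.Boundaryless]
  {M : Type} [TopologicalSpace M] [ChartedSpace HM M] [IsManifold I ∞ M]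
  [MeasurableSpace M] [BorelSpace M] [SecondCountableTopology M]
  {ι : Type} [Fintype ι] {lam : Type} [Fintype lam]
  {E' : Type} [NormedAddCommGroup E'] [NormedSpace ℝ E'] [FiniteDimensional ℝ E']
  [MeasurableSpace E'] [BorelSpace E']
  {HM' : Type} [TopologicalSpace HM'] {I' : ModelWithCorners ℝ E' HM'} [I'.Boundaryless]
  {M' : Type} [TopologicalSpace M'] [ChartedSpace HM' M'] [IsManifold I' ∞ M']
  [MeasurableSpace M'] [BorelSpace M'] [SecondCountableTopology M']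
  {ι' : Type} [Fintype ι'] {lam' : Type} [Fintype lam']
  {B : Base M ι lam} {B' : Base M' ι' lam'} {G : Geo I M ι lam} {G' : Geo I' M' ι' lam'}
  {k : Cut M lam} {k' : Cut M' lam'} {x : M} {x' : M'}
  {m : Md M ι lam} {m' : Md M' ι' lam'} {W : m.Cn} {W' : m'.Cn}

section pt
variable (F : Fr I M ι) (F' : Fr I' M' ι') (U : ι' → ι → ℝ) (v : CL (Eu lam) (Eu lam'))
  (u : CL m.V m'.V)

variable (x x') in
/-- related differentials -/
def DR (g : M → ℝ) (g' : M' → ℝ) : Prop := ∀ b, F'.D b g' x' = ∑ a, U b a • F.D a g x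

variable (k k' B B' x x') in
/-- the data of two cuts correspond at two points -/
structure KP : Prop where
  hB : B.OK I
  hB' : B'.OK I'
  ok : m.OK I B
  ok' : m'.OK I' B'
  P : F.P = B.P
  be : BE B x B' x' U v
  me : ME m x m' x' U v u
  w : List.Forall₂ (fun t t' => t'.1 x' = t.1 x ∧ DR x x' F F' U t.2.1 t'.2.1 ∧
    DR x x' F F' U t.2.2 t'.2.2) k.w k'.w
  e : List.Forall₂ (fun t t' => It u (m.j x (t.1 x)) (m'.j x' (t'.1 x')) ∧
    DR x x' F F' U t.2.1 t'.2.1 ∧ DR x x' F F' U t.2.2 t'.2.2) k.e k'.e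

variable {F F' U v u}

theorem dr_refl (h : F.P = B.P) (g : M → ℝ) : DR x x F F (fun b a => B.P b a x) g g := fun b =>
  h ▸ ((frm F).projD b g x).symm

namespace KP
variable (h : KP B B' k k' x x' F F' U v u)
include h

theorem pi : It u (k.pi B F m x) (k'.pi B' F' m' x') := by
  have a : RT U (k.om B F x) (k'.om B' F' x') := RT.lsum h.w fun a _ b _ e => by
    rw [e.1]; exact (dd_rel h.be h.hB h.hB' e.2.1 e.2.2).smul _
  have b : RT (fun b a => B.P b a x) (k.om B F x) (k.om B F x) :=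
    RT.lsum (R := Eq) (List.forall₂_refl _) fun a _ b _ e => e ▸
      (dd_rel (BE.refl h.hB x) h.hB h.hB (dr_refl h.P _) (dr_refl h.P _)).smul _
  rw [Cut.pi, Cut.pi, a.norm h.be.UU b]
  exact ((It.of (h.me.pp h.be h.hB h.hB' h.ok)).sub
    ((It.mul h.me.J.symm (c2_it h.me h.be h.ok a)).smul _)).smul _

theorem qu : It u (k.qu B F m x) (k'.qu B' F' m' x') := by
  have a : It u (k.q0 B F m x) (k'.q0 B' F' m' x') := (h.pi.mul (It.lsum h.e fun _ _ _ _ e =>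
    (c2_it h.me h.be h.ok (dd_rel h.be h.hB h.hB' e.2.1 e.2.2)).mul e.1)).mul h.pi
  rw [Cut.qu, Cut.qu, a.norm_hs h.me.uu h.me.uu' (p_q0 k h.ok) (q0_p k h.ok) (q0_p k' h.ok')]
  exact a.smul _

end KP
end pt

/-- the connections along the paths -/
theorem A0_pr' {O : Set M} {φ : M → M'} {U : M → ι' → ι → ℝ} {v : M → CL (Eu lam) (Eu lam')}
    {u : M → CL m.V m'.V} (g : LM B G B' G' O φ U v W W' u) {θ : UnitAddCircle}
    (hc : ContMDiff 𝓘(ℝ, ℝ) I ∞ (k.γ θ)) (R : k.Rel k' O φ v) :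
    PR (k.A0 G.F m W θ) (k'.A0 G'.F m' W' θ) fun s => u (k.γ θ s) := fun s => by
  have hx := γ_mem R θ s
  refine (hasDerivAt_comp (F := G.F) (hc s) (g.su _ hx)).congr_deriv ?_
  have h1 : k'.A0 G'.F m' W' θ s = ∑ a, vl G.F (k.γ θ) s a •
      pb φ (fun b a x => U x b a) W' a (k.γ θ s) := by
    have h2 : ∀ b, k'.vel G'.F θ s b = ∑ a, U (k.γ θ s) b a * vl G.F (k.γ θ) s a := fun b => by
      rw [← vl_rel g.toLG (hc s) hx, ← show k'.γ θ = _ from funext (R.γ θ)]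
      rfl
    simp only [Cut.A0, h2, R.γ, pb, sum_smul, smul_sum, smul_smul, mul_comm]
    exact sum_comm
  rw [h1, Cut.A0, ContinuousLinearMap.comp_finsetSum, ContinuousLinearMap.finsetSum_comp,
    ← sum_sub_distrib]
  refine sum_congr rfl fun a _ => ?_
  rw [ContinuousLinearMap.comp_smul, ContinuousLinearMap.smul_comp, ← g.itw _ hx a, smul_add]
  exact (add_sub_cancel_right _ _).symm

theorem trn_A0 (cn : m.IsConn B G W) (F : Fr I M ι) (θ : UnitAddCircle) (s : ℝ) :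
    trn (k.A0 F m W θ s) = -k.A0 F m W θ s := by
  show trnL _ = _
  rw [Cut.A0, map_sum, ← sum_neg_distrib]
  refine sum_congr rfl fun a _ => ?_
  rw [map_smul, ← smul_neg]
  exact congrArg _ (trn_of_skw (cn.sk _ _))

/-- **the symbol is natural**, weak form -/
theorem sym_it' (hB : B.OK I) (hG : G.OK B) (hk : k.OK B G.F) (H : m.OK I B) (cn : m.IsConn B G W)
    {F' : Fr I' M' ι'} (hd : Csm97.Dat I' k')
    (sm : ∀ x ∈ k'.supp, SA I' (k'.pi B' F' m') x ∧ SA I' (k'.qu B' F' m') x)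
    (ct : Continuous (uncurry (k'.A2 B' F' m' W'))) {w : UnitAddCircle → ℝ → CL m.V m'.V}
    {u0 u1 : CL m.V m'.V} (hA : ∀ θ, PR (k.A0 G.F m W θ) (k'.A0 F' m' W' θ) (w θ))
    (hp : ∀ θ s, It (w θ s) (k.pi B G.F m (k.γ θ s)) (k'.pi B' F' m' (k'.γ θ s)))
    (hq : ∀ θ s, It (w θ s) (k.qu B G.F m (k.γ θ s)) (k'.qu B' F' m' (k'.γ θ s)))
    (h0 : ∀ θ, w θ 0 = u0) (h1 : ∀ θ, w θ 1 = u1) (a : u0 ∘L trn u0 = m'.p k'.x0)
    (b : trn u1 ∘L u1 = m.p (k.γ 0 1)) (c : m'.p k'.x0 ∘L u0 = u0)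
    (f : It u0 (m.pp B k.x0) (m'.pp B' k'.x0)) (θ : UnitAddCircle) :
    It u0 (k.sym B G.F m W θ) (m'.p k'.x0 * k'.sym B' F' m' W' θ) := by
  have t : ∀ θ, trp (k'.A2 B' F' m' W' θ) 1 ∘L u0 = u1 ∘L trp (k.A2 B G.F m W θ) 1 := fun θ => by
    have h := (hA θ).a2 ((cd_pi hB hk H θ).differentiable (by simp))
      (fun s => (hd.der_mf (sm _ ⟨(θ, s), rfl⟩).1.md).differentiableAt) (hp θ)
      ((cd_qu hB hk H θ).differentiable (by simp))
      (fun s => (hd.der_mf (sm _ ⟨(θ, s), rfl⟩).2.md).differentiableAt) (hq θ)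
    rw [← A2_eq, ← A2_eq] at h
    rw [← h0 θ, ← h1 θ]
    exact h.trp (cont_A2 hB hk H cn θ) (ct.uncurry_left θ) 1
  exact sym_alg (t 0) (t θ) (hk.h1 θ 1 le_rfl ▸ trp_p hB hG hk H cn θ 1) a b c (p_pi k H)
    (h0 0 ▸ hp 0 0) f

/-! ### operators that converge after transport -/

section lk
variable {α : Type} (l : Filter α) {X : α → Type} [∀ i, NormedAddCommGroup (X i)]
  [∀ i, NormedSpace ℝ (X i)] {Y : Type} [NormedAddCommGroup Y] [NormedSpace ℝ Y]
  (R : ∀ i, CL (X i) Y)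

/-- `A i → A₀` after transport along `R` -/
def Lk (A : ∀ i, CL (X i) (X i)) (A₀ : CL Y Y) : Prop :=
  ∃ T : α → CL Y Y, Tendsto T l (𝓝 A₀) ∧ ∀ᶠ i in l, ∀ a, T i (R i a) = R i (A i a)

variable {l R} {A C : ∀ i, CL (X i) (X i)} {A₀ C₀ : CL Y Y}

theorem Lk.zero : Lk l R (fun _ => 0) 0 :=
  ⟨fun _ => 0, tendsto_const_nhds, .of_forall fun _ _ => by simp⟩

theorem Lk.add (h : Lk l R A A₀) (k : Lk l R C C₀) : Lk l R (fun i => A i + C i) (A₀ + C₀) :=
  let ⟨_, a, b⟩ := h; let ⟨_, c, d⟩ := k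
  ⟨_, a.add c, (b.and d).mono fun _ e _ => by simp [e.1, e.2]⟩

theorem Lk.sub (h : Lk l R A A₀) (k : Lk l R C C₀) : Lk l R (fun i => A i - C i) (A₀ - C₀) :=
  let ⟨_, a, b⟩ := h; let ⟨_, c, d⟩ := k
  ⟨_, a.sub c, (b.and d).mono fun _ e _ => by simp [e.1, e.2]⟩

theorem Lk.smul (h : Lk l R A A₀) {z : α → ℝ} {z₀ : ℝ} (hz : Tendsto z l (𝓝 z₀)) :
    Lk l R (fun i => z i • A i) (z₀ • A₀) :=
  let ⟨_, a, b⟩ := h
  ⟨_, hz.smul a, b.mono fun _ e _ => by simp [e]⟩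

theorem Lk.fsum {K : Type} (T : Finset K) {A : K → ∀ i, CL (X i) (X i)} {A₀ : K → CL Y Y}
    (h : ∀ w ∈ T, Lk l R (A w) (A₀ w)) : Lk l R (fun i => ∑ w ∈ T, A w i) (∑ w ∈ T, A₀ w) := by
  classical
  induction T using Finset.induction_on with
  | empty => exact .zero
  | insert a T ha ih =>
    simp only [Finset.sum_insert ha]
    exact (h a (by simp)).add (ih fun i hi => h i (by simp [hi]))

theorem Lk.lim [CompleteSpace Y] {𝒰 : Ultrafilter α} (h : Lk 𝒰 R A A₀) (hF : A₀.IsFredholm)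
    {ψ : ∀ i, X i} (h1 : ∀ᶠ i in 𝒰, ‖R i (ψ i)‖ = 1) (h0 : ∀ i, A i (ψ i) = 0) :
    ∃ χ, Tendsto (fun i => R i (ψ i)) 𝒰 (𝓝 χ) ∧ ‖χ‖ = 1 ∧ A₀ χ = 0 :=
  let ⟨_, a, b⟩ := h
  Hol14.exists_lim_ker hF 𝒰 a h1 (b.mono fun i e => by rw [e, h0, map_zero])

end lk

end Crest.Agent.X212.Cut63
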