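import Crest.Agent.X212.Cut63.Nat
import Crest.Agent.X212.Cmp73.Up
import Crest.Agent.X212.An.Job

/-!
# Row 212, CT-CUT (helper63), part 3: cuts along converging families
-/

set_option autoImplicit false
set_option linter.unusedSectionVars false
noncomputable section
open scoped Manifold ContDiff Topology InnerProductSpace NNReal
open Set Function Filter

namespace Crest.Agent.X212.Cut63
open An Eqv71 Wz78 Cnt93 Cmp73 Shi84 Csm97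
open Pj41 (FRel)
open Wrd81 (wd)

variable {E : Type} [NormedAddCommGroup E] [NormedSpace ℝ E] [FiniteDimensional ℝ E]
  [MeasurableSpace E] [BorelSpace E]
  {HM : Type} [TopologicalSpace HM] {I : ModelWithCorners ℝ E HM} [I.Boundaryless]
  {E' : Type} [NormedAddCommGroup E'] [NormedSpace ℝ E'] [FiniteDimensional ℝ E']
  [MeasurableSpace E'] [BorelSpace E']
  {H' : Type} [TopologicalSpace H'] {I' : ModelWithCorners ℝ E' H'} [I'.Boundaryless]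
  {E₀ : Type} [NormedAddCommGroup E₀] [NormedSpace ℝ E₀] [FiniteDimensional ℝ E₀]
  [MeasurableSpace E₀] [BorelSpace E₀]
  {H₀ : Type} [TopologicalSpace H₀] {I₀ : ModelWithCorners ℝ E₀ H₀} [I₀.Boundaryless]
  {M : Type} [TopologicalSpace M] [ChartedSpace H₀ M] [IsManifold I₀ ∞ M] [MeasurableSpace M]
  [T2Space M] [BorelSpace M] [SecondCountableTopology M]
  {ι lam : Type} [Fintype ι] [Fintype lam] {r : ℕ}

theorem it_conj {κ κ' : Type} [Fintype κ] [Fintype κ'] {w : CL (Eu κ) (Eu κ')} {p T : En κ}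
    (e : trn w ∘L w = p) (k : T * p = T) : It w T (w ∘L T ∘L trn w) := by
  rw [It, ContinuousLinearMap.comp_assoc, ContinuousLinearMap.comp_assoc, e]
  exact congrArg _ k

section pb
variable {M' : Type} [TopologicalSpace M'] [ChartedSpace H' M'] [IsManifold I' ∞ M']
  [MeasurableSpace M'] [T2Space M'] [BorelSpace M'] [SecondCountableTopology M']

theorem vl_frel {F : Fr I₀ M ι} {F' : Fr I' M' ι} {ψ : M → M'} {O : Set M} (h : FRel F F' ψ O)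
    {c : ℝ → M} {s : ℝ} (hc : ContMDiffAt 𝓘(ℝ, ℝ) I₀ ∞ c s) (hx : c s ∈ O) (b : ι) :
    vl F' (fun t => ψ (c t)) s b = vl F c s b := by
  have h1 : mfderiv 𝓘(ℝ, ℝ) I' (fun t => ψ (c t)) s (1 : ℝ)
      = ∑ a, vl F c s a • Num57.ee F' (ψ (c s)) a := by
    rw [show (fun t => ψ (c t)) = ψ ∘ c from rfl, mfderiv_comp s
      ((h.ld _ hx).contMDiffAt.mdifferentiableAt (by simp)) (hc.mdifferentiableAt (by simp))]
    show mfderiv I₀ I' ψ (c s) (mfderiv 𝓘(ℝ, ℝ) I₀ c s (1 : ℝ)) = _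
    rw [← vl_sum (F := F), map_sum]
    exact Finset.sum_congr rfl fun a _ => by rw [map_smul, h.e a _ hx]; rfl
  have h2 := Num57.tl_comb F (c s) b (vl F c s)
  rw [vl, h1, Num57.tl_comb]
  simp only [← h.P hx]
  exact h2.symm.trans (congrArg _ (vl_sum (F := F) s))

variable {B : Base M ι lam} {G : Geo I₀ M ι lam} {B' : Base M' ι lam} {G' : Geo I' M' ι lam}
  {O' : Set M'} {φ : M → M'} {ψ : M' → M} {U : M → ι → ι → ℝ} {v : M → CL (Eu lam) (Eu lam)}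
  {c : Cfg M ι lam r} {y : Cfg M' ι lam r} {u : M → CL c.m.V y.m.V}
  (k : PB B G B' G' O' φ ψ U v c y u)
include k

theorem pb_vq {d s a e l d' s' a' e' l'} (Rd : CoR univ φ v d d') (Rs : SR univ φ v s s')
    (Ra : SWR univ φ a a') (Re : SWR univ φ e e') (Rl : List.Forall₂ (LaR univ φ) l l')
    (ok : (Xi.qj d' s' a' e' l').OK G'.F) (z : CoZ G'.F.μ O' d') {ξ : M' → y.m.A}
    (h : vQ y G'.F d' s' a' e' l' ξ) :
    (∀ z, ξ z ∈ y.m.gS z) ∧ vQ c G.F d s a e l (pA φ u ξ) := by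
  obtain ⟨p, q, k1, k2, k3⟩ := h
  exact ⟨(k.la Rl (fun z => pg_mem z _) k3).1, _, _, k.vj Rd ok.1 z Rs Ra ok.2.2.1 k1,
    (k.sw Re ok.2.2.2.1 k2).2, k.q p q ▸ (k.la Rl (fun z => pg_mem z _) k3).2⟩

theorem kp_pb {k₁ : Cut M lam} {k₂ : Cut M' lam}
    (R : k₁.Rel k₂ univ φ v) (d : Dat I' k₂) (x : M) :
    KP B' B k₂ k₁ (φ x) x G'.F G.F (fun a b => U x b a) (trn (v x)) (trn (u x)) :=
  ⟨k.lm.hB', k.lm.hB, k.lm.ok', k.lm.ok, k.lm.hG'.P, k.be x, k.me x,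
    (List.forall₂_and_left _ _ |>.2 ⟨d.sw, R.w.flip⟩).imp fun _ _ e =>
      ⟨(e.2.1 (mem_univ x)).symm, fun a => k.D e.2.2.1 e.1.2.1 a x, fun a => k.D e.2.2.2 e.1.2.2 a x⟩,
    (List.forall₂_and_left _ _ |>.2 ⟨d.se, R.e.flip⟩).imp fun _ _ e =>
      ⟨It.of fun a => (k.j e.2.1 x a).symm, fun a => k.D e.2.2.1 e.1.2.1 a x,
        fun a => k.D e.2.2.2 e.1.2.2 a x⟩⟩

end pb

variable {α : Type}
  {X : α → Type} [∀ n, TopologicalSpace (X n)] [∀ n, ChartedSpace HM (X n)]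
  [∀ n, IsManifold I ∞ (X n)] [∀ n, MeasurableSpace (X n)] [∀ n, T2Space (X n)]
  [∀ n, BorelSpace (X n)] [∀ n, SecondCountableTopology (X n)]
  {Z : α → Type} [∀ n, TopologicalSpace (Z n)] [∀ n, ChartedSpace H' (Z n)]
  [∀ n, IsManifold I' ∞ (Z n)] [∀ n, MeasurableSpace (Z n)] [∀ n, T2Space (Z n)]
  [∀ n, BorelSpace (Z n)] [∀ n, SecondCountableTopology (Z n)]
  {g : Gs I I₀ M ι lam X} {k₀ : Cut M lam} {b : Cfg M ι lam r}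

section nr
variable {c : ∀ n, Cfg (X n) ι lam r} {u : ∀ n, M → CL (c n).m.V b.m.V} {n : α} {k₁ : Cut (X n) lam}
  (hg : g.OK) (R : k₀.Rel k₁ g.Pᶜ (g.ψ n) g.B₀.l)
include hg R

theorem kp_nr (ha : (c n).m.OK I (g.B n)) (hb : b.m.OK I₀ g.B₀) {y : M} (hy : y ∉ g.P)
    (q : g.Nr c b u n y) : KP (g.B n) g.B₀ k₁ k₀ (g.ψ n y) y (g.G n).F (g.H n).F
      (fun b a => g.B₀.P b a y) (g.B₀.l y) (u n y) := by
  have d : ∀ {f : M → ℝ} {f' : X n → ℝ}, EqOn (f' ∘ g.ψ n) f g.Pᶜ →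
      DR (g.ψ n y) y (g.G n).F (g.H n).F (fun b a => g.B₀.P b a y) f' f := fun {f f'} e a => by
    rw [(hg.rel n).D q.src a (u := f) (u' := f') (eventually_of_mem
      (hg.fin.isClosed.isOpen_compl.mem_nhds hy) fun z hz => (e hz).symm),
      dr_refl (hg.G n).P f' a]
    simp only [q.P]
  refine ⟨hg.B n, hg.B₀, ha, hb, (hg.G n).P, q.be, q.me,
    R.w.flip.imp fun _ _ e => ⟨(e.1 hy).symm, d e.2.1, d e.2.2⟩,
    R.e.flip.imp fun t t' e => ⟨It.of fun a => ?_, d e.2.1, d e.2.2⟩⟩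
  have := e.1 y hy
  rw [trn_l hg.B₀, trn_of_sym (hg.B₀.lsym y)] at this
  rw [← q.j, ← hb.jl, ← this, hb.jl]

theorem pr_nr (hk : k₀.OK g.B₀ g.G₀.F) (q : ∀ y ∈ k₀.supp, g.Nr c b u n y) (θ : UnitAddCircle) :
    PR (k₁.A0 (g.G n).F (c n).m (c n).W θ) (k₀.A0 (g.H n).F b.m (g.tW c b u n) θ)
      fun s => u n (k₀.γ θ s) := fun s => by
  have hq := q (k₀.γ θ s) ⟨(θ, s), rfl⟩
  have hc := sm_γ hk θ s
  refine (hasDerivAt_comp (F := (g.H n).F) hc hq.su).congr_deriv ?_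
  have h2 : ∀ a, k₁.vel (g.G n).F θ s a = vl (g.H n).F (k₀.γ θ) s a := fun a => by
    rw [← vl_frel (hg.rel n) hc hq.src, ← show k₁.γ θ = _ from funext (R.γ θ)]
    rfl
  rw [Cut.A0, Cut.A0, ContinuousLinearMap.comp_finsetSum, ContinuousLinearMap.finsetSum_comp,
    ← Finset.sum_sub_distrib]
  refine Finset.sum_congr rfl fun a _ => ?_
  rw [ContinuousLinearMap.comp_smul, ContinuousLinearMap.smul_comp, h2, R.γ]
  exact (congrArg _ (eq_sub_of_add_eq (hq.itw a))).trans (smul_sub _ _ _)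

theorem sm_k₁ (hk : k₀.OK g.B₀ g.G₀.F) (q : ∀ y ∈ k₀.supp, g.Nr c b u n y) (θ : UnitAddCircle) :
    ContMDiff 𝓘(ℝ, ℝ) I ∞ (k₁.γ θ) := fun s => by
  rw [show k₁.γ θ = _ from funext (R.γ θ)]
  exact ((hg.rel n).ld _ (q _ ⟨(θ, s), rfl⟩).src).contMDiffAt.comp s (sm_γ hk θ s)

end nr

variable {h : Up I' Z g r} {u : ∀ n, M → CL (h.x n).m.V b.m.V} {k₁ : ∀ n, Cut (X n) lam}
  {k₂ : ∀ n, Cut (Z n) lam}

variable (h b u k₀ k₁ k₂) in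
/-- cuts along a converging family -/
structure CK : Prop where
  up : h.OK
  lb : g.LB h.x b u
  ok₀ : k₀.OK g.B₀ g.G₀.F
  ok₂ : ∀ n, (k₂ n).OK (h.B n) (h.G n).F
  R₁ : ∀ n, k₀.Rel (k₁ n) g.Pᶜ (g.ψ n) g.B₀.l
  R₂ : ∀ n, (k₁ n).Rel (k₂ n) univ (h.φ n) (h.v n)
  sub : k₀.supp ⊆ (g.S h.x)ᶜ

variable (u) in
/-- the gauges -/
abbrev ga (n : α) (y : M) : CL (h.y n).m.V b.m.V := u n y ∘L trn (h.u n (g.ψ n y))

variable (u k₀ k₂) in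
/-- the gauges on the Hardy spaces -/
abbrev Rr (n : α) : CL ((k₂ n).H (h.B n) (h.y n).m) (k₀.H g.B₀ b.m) := Uh _ _ _ _ (ga u n k₀.x0)

namespace CK
variable (H : CK k₀ b h u k₁ k₂)
include H

theorem nr : ∀ᶠ n in (g.l : Filter α), ∀ y ∈ k₀.supp, g.Nr h.x b u n y :=
  ev_compact (dat H.ok₀).isCompact_supp fun _ hy => H.lb.lim.nr H.up.bk.ok H.up.bk.adm (H.sub hy)

theorem γ (n : α) (θ : UnitAddCircle) (s : ℝ) : (k₂ n).γ θ s = h.φ n (g.ψ n (k₀.γ θ s)) := by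
  rw [(H.R₂ n).γ, (H.R₁ n).γ]

section pt
variable {n : α} {y : M} (q : g.Nr h.x b u n y)
include q

theorem uu : trn (ga u n y) ∘L ga u n y = (h.y n).m.p (h.φ n (g.ψ n y)) :=
  (((H.up.pb n).me _).trans q.me (H.up.lh n).ok (H.up.bk.adm n).ok).uu

theorem uu' : ga u n y ∘L trn (ga u n y) = b.m.p y :=
  (((H.up.pb n).me _).trans q.me (H.up.lh n).ok (H.up.bk.adm n).ok).uu'

theorem pu : b.m.p y ∘L ga u n y = ga u n y :=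
  (((H.up.pb n).me _).trans q.me (H.up.lh n).ok (H.up.bk.adm n).ok).pu (H.up.lh n).ok

theorem hi' : HI (h.y n).m.J ((h.y n).m.pp (h.B n) (h.φ n (g.ψ n y))) b.m.J (b.m.pp g.B₀ y)
    (ga u n y) :=
  hi_of_me (((H.up.pb n).me _).trans q.me (H.up.lh n).ok (H.up.bk.adm n).ok)
    (((H.up.pb n).be _).trans q.be (H.up.lh n).hB (H.up.bk.ok.B n)) (H.up.lh n).hB H.up.bk.ok.B₀
    (H.up.lh n).ok H.lb.lim.adm.ok

theorem pi (hy : y ∉ g.P) : It (ga u n y) ((k₂ n).pi (h.B n) (h.G n).F (h.y n).m (h.φ n (g.ψ n y)))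
    (k₀.pi g.B₀ (g.H n).F b.m y) :=
  (kp_pb (H.up.pb n) (H.R₂ n) (dat (H.ok₂ n)) _).pi.comp
    (kp_nr H.up.bk.ok (H.R₁ n) (H.up.bk.adm n).ok H.lb.lim.adm.ok hy q).pi

theorem qu (hy : y ∉ g.P) : It (ga u n y) ((k₂ n).qu (h.B n) (h.G n).F (h.y n).m (h.φ n (g.ψ n y)))
    (k₀.qu g.B₀ (g.H n).F b.m y) :=
  (kp_pb (H.up.pb n) (H.R₂ n) (dat (H.ok₂ n)) _).qu.comp
    (kp_nr H.up.bk.ok (H.R₁ n) (H.up.bk.adm n).ok H.lb.lim.adm.ok hy q).qu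

theorem it_g {s : (h.y n).m.A} (hs : s ∈ (h.y n).m.gS (h.φ n (g.ψ n y))) :
    It (ga u n y) (opL s) (opL (cj (u n y) (cj (trn (h.u n (g.ψ n y))) s))) := by
  rw [cj_cj, opL_cj]
  exact it_conj (H.uu q) (g_p' (H.up.lh n).ok hs)

end pt

section ev
variable {n : α} (q : ∀ y ∈ k₀.supp, g.Nr h.x b u n y)
include q

theorem hi : HI (h.y n).m.J ((h.y n).m.pp (h.B n) (k₂ n).x0) b.m.J (b.m.pp g.B₀ k₀.x0)
    (ga u n k₀.x0) := by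
  rw [show (k₂ n).x0 = _ from H.γ n 0 0]
  exact H.hi' (q _ ⟨(0, 0), rfl⟩)

theorem norm (a : (k₂ n).H (h.B n) (h.y n).m) : ‖Rr k₀ u k₂ n a‖ = ‖a‖ :=
  (H.hi q).norm (fun w hw => (congrArg (fun T : En _ => T w) (H.uu (q _ ⟨(0, 0), rfl⟩))).trans (by
    rw [← hw, show (k₂ n).x0 = _ from H.γ n 0 0]; exact Eqv71.p_pp (H.up.lh n).ok _ _)) a

theorem pr (θ : UnitAddCircle) : PR ((k₂ n).A0 (h.G n).F (h.y n).m (h.y n).W θ)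
    (k₀.A0 (g.H n).F b.m (g.tW h.x b u n) θ) fun s => ga u n (k₀.γ θ s) := by
  have := pr_trans (pr_trn (A0_pr' (H.up.pb n).lm (sm_k₁ H.up.bk.ok (H.R₁ n) H.ok₀ q θ) (H.R₂ n))
    (trn_A0 (H.up.bk.adm n).conn _ θ) (trn_A0 (H.up.lh n).conn _ θ))
    (pr_nr H.up.bk.ok (H.R₁ n) H.ok₀ q θ)
  simpa only [(H.R₁ n).γ] using this

theorem sym (sm : ∀ x ∈ k₀.supp, SA I₀ (k₀.pi g.B₀ (g.H n).F b.m) x ∧
      SA I₀ (k₀.qu g.B₀ (g.H n).F b.m) x)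
    (ct : Continuous (uncurry (k₀.A2 g.B₀ (g.H n).F b.m (g.tW h.x b u n)))) (θ : UnitAddCircle) :
    It (ga u n k₀.x0) ((k₂ n).sym (h.B n) (h.G n).F (h.y n).m (h.y n).W θ)
      (b.m.p k₀.x0 * k₀.sym g.B₀ (g.H n).F b.m (g.tW h.x b u n) θ) :=
  have m := fun θ s => q (k₀.γ θ s) ⟨(θ, s), rfl⟩
  have P := fun θ s => (H.R₁ n).sub (⟨(θ, s), rfl⟩ : k₀.γ θ s ∈ k₀.supp)
  sym_it' (H.up.lh n).hB (H.up.lh n).hG (H.ok₂ n) (H.up.lh n).ok (H.up.lh n).conn (dat H.ok₀) sm ct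
    (u1 := ga u n (k₀.γ 0 1)) (H.pr q) (fun θ s => H.γ n θ s ▸ H.pi (m θ s) (P θ s))
    (fun θ s => H.γ n θ s ▸ H.qu (m θ s) (P θ s)) (fun θ => by rw [H.ok₀.h0 θ 0 le_rfl])
    (fun θ => by rw [H.ok₀.h1 θ 1 le_rfl]) (H.uu' (m 0 0)) (H.γ n 0 1 ▸ H.uu (m 0 1))
    (H.pu (m 0 0)) (H.hi q).hp θ

end ev

theorem cv : (∀ᶠ n in (g.l : Filter α), (∀ x ∈ k₀.supp, SA I₀ (k₀.pi g.B₀ (g.H n).F b.m) x ∧
      SA I₀ (k₀.qu g.B₀ (g.H n).F b.m) x) ∧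
      Continuous (uncurry (k₀.A2 g.B₀ (g.H n).F b.m (g.tW h.x b u n))) ∧
      Continuous (k₀.sym g.B₀ (g.H n).F b.m (g.tW h.x b u n))) ∧
    Tendsto (fun n => cm (k₀.sym g.B₀ (g.H n).F b.m (g.tW h.x b u n))) g.l
      (𝓝 (cm (k₀.sym g.B₀ g.G₀.F b.m b.W))) ∧
    Tendsto (fun n => k₀.pi g.B₀ (g.H n).F b.m k₀.x0) g.l (𝓝 (k₀.pi g.B₀ g.G₀.F b.m k₀.x0)) :=
  sym_cv H.up.bk.ok.B₀ H.lb.lim.adm.ok H.lb.lim.op
    (fun a => ⟨fun k x _ => (H.up.bk.ok.e a).mb k x, fun x _ => (H.up.bk.ok.e a).pt x⟩) H.ok₀ H.sub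
    H.lb.lim.cW

/-- **the Toeplitz operators converge** -/
theorem lk_T : Lk g.l (Rr k₀ u k₂) (fun n => (k₂ n).T (h.B n) (h.G n).F (h.y n).m (h.y n).W)
    (k₀.T g.B₀ g.G₀.F b.m b.W) := by
  obtain ⟨c1, c2, -⟩ := H.cv
  have hg := H.up.bk.ok
  have hb := H.lb.lim.adm
  have c0 := sym_cont hg.B₀ hb.ok H.ok₀ (Hol14.cn0_of hb.conn).ct
  have e : ContinuousMap.const _ (b.m.p k₀.x0) * cm (k₀.sym g.B₀ g.G₀.F b.m b.W) =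
      cm (k₀.sym g.B₀ g.G₀.F b.m b.W) := ContinuousMap.ext fun θ => by
    rw [ContinuousMap.mul_apply, Csm97.cm_apply c0]
    exact p_sym hg.B₀ hg.G₀ H.ok₀ hb.ok hb.conn θ
  refine ⟨fun n => tpzL _ _ (ContinuousMap.const _ (b.m.p k₀.x0) *
    cm (k₀.sym g.B₀ (g.H n).F b.m (g.tW h.x b u n))), ?_, (c1.and H.nr).mono fun n hn a => ?_⟩
  · rw [Cut.T, ← tpzL_cm, ← e]
    exact ((tpzL _ _).continuous.tendsto _).comp (c2.const_mul _)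
  · have e' := cm_eq (g := fun θ => b.m.p k₀.x0 * k₀.sym g.B₀ (g.H n).F b.m (g.tW h.x b u n) θ)
      (G := ContinuousMap.const _ (b.m.p k₀.x0) * cm (k₀.sym g.B₀ (g.H n).F b.m (g.tW h.x b u n)))
      fun θ => by rw [ContinuousMap.mul_apply, Csm97.cm_apply hn.1.2.2]; rfl
    beta_reduce
    rw [← e', tpzL_cm]
    exact (H.hi hn.2).tpz (H.sym hn.2 hn.1.1 hn.1.2.1) (iff_of_true (sym_cont (H.up.lh n).hB
      (H.up.lh n).ok (H.ok₂ n) (Hol14.cn0_of (H.up.lh n).conn).ct)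
      (continuous_const.mul hn.1.2.2)) a

end CK

variable (u k₀ k₂) in
/-- endomorphisms of the fibres over the base points converge -/
def XL (A : ∀ n, En (Fin (h.y n).m.N)) (A₀ : En (Fin b.m.N)) : Prop :=
  ∃ Ξ : α → En (Fin b.m.N), Tendsto Ξ g.l (𝓝 A₀) ∧
    ∀ᶠ n in (g.l : Filter α), It (ga u n k₀.x0) (A n) (Ξ n)

namespace CK
variable (H : CK k₀ b h u k₁ k₂)
include H

theorem lk_frk {A : ∀ n, En (Fin (h.y n).m.N)} {A₀ : En (Fin b.m.N)} (hA : XL k₀ u A A₀)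
    (i j : ℕ) (w : ℂ) : Lk g.l (Rr k₀ u k₂) (fun n => frk _ _ i j
      ((k₂ n).pi (h.B n) (h.G n).F (h.y n).m (k₂ n).x0 * csE (h.y n).m.J w * A n *
        (k₂ n).pi (h.B n) (h.G n).F (h.y n).m (k₂ n).x0))
      (frk _ _ i j (k₀.pi g.B₀ g.G₀.F b.m k₀.x0 * csE b.m.J w * A₀ * k₀.pi g.B₀ g.G₀.F b.m k₀.x0)) := by
  obtain ⟨Ξ, t, e⟩ := hA
  have c := H.cv.2.2
  refine ⟨_, ((frkL _ _ i j).continuous.tendsto _).comp (((c.mul_const _).mul t).mul c),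
    (e.and H.nr).mono fun n hn a => (H.hi hn.2).frk ?_ i j a⟩
  have p : It _ ((k₂ n).pi _ _ _ (k₂ n).x0) _ := (show (k₂ n).x0 = _ from H.γ n 0 0).symm ▸
    H.pi (hn.2 _ ⟨(0, 0), rfl⟩) ((H.R₁ n).sub ⟨(0, 0), rfl⟩)
  exact ((p.mul ((H.hi hn.2).hJ.csE w)).mul hn.1).mul p

theorem lk_tc {t : ∀ n, Tc (Z n) lam r} {t₀ : Tc M lam r} (h1 : ∀ n, (t n).m = t₀.m)
    (h2 : ∀ n, (t n).n = t₀.n) (h3 : ∀ n, (t n).w = t₀.w)
    (hA : XL k₀ u (fun n => (h.y n).xi (h.G n).F (t n).ξ (k₂ n).x0) (b.xi g.G₀.F t₀.ξ k₀.x0))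
    {z : α → ℝ} {z₀ : ℝ} (hz : Tendsto z g.l (𝓝 z₀)) :
    Lk g.l (Rr k₀ u k₂) (fun n => z n • (h.y n).tc (h.B n) (h.G n).F (k₂ n) (t n))
      (z₀ • b.tc g.B₀ g.G₀.F k₀ t₀) := by
  simp only [Cfg.tc, h1, h2, h3]
  exact (H.lk_frk hA _ _ _).smul hz

theorem xl_qa {s : ∀ n, Z n → (h.y n).m.A} {s' : ∀ b : Cfg M ι lam r, M → b.m.A} (a : h.QA s s')
    (hs : ∀ n z, s n z ∈ (h.y n).m.gS z) :
    XL k₀ u (fun n => opL (s n (k₂ n).x0)) (opL (s' b k₀.x0)) :=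
  ⟨_, (opL.continuous.tendsto _).comp ((a.lim b u H.lb).cv.pt _ (H.sub ⟨(0, 0), rfl⟩)),
    H.nr.mono fun n q => by
      show It _ (opL (s n (k₂ n).x0)) _
      rw [show (k₂ n).x0 = _ from H.γ n 0 0]
      exact H.it_g (q _ ⟨(0, 0), rfl⟩) (hs n _)⟩

theorem xl_aw {w : ∀ n, Z n → ℝ} {K : ℝ≥0} (hw : g.WR fun n => w n ∘ h.φ n) {ξ : ∀ n, AW (X n)}
    {ξ₂ : ∀ n, AW (Z n)} {ξ₀ : AW M} (c : g.cA h.x ξ fun _ => ξ₀)
    (R : ∀ n, AWR univ (h.φ n) (ξ n) (ξ₂ n)) (ok : ∀ n, (ξ₂ n).OK (h.G n).F)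
    (sb : ∀ n, Abel74.SdB (h.y n) (h.G n).F K (w n) (ξ₂ n).s) :
    XL k₀ u (fun n => opL ((h.y n).aw (h.G n).F (ξ₂ n) (k₂ n).x0)) (opL (b.aw g.G₀.F ξ₀ k₀.x0)) :=
  have p := fun n => (H.up.pb n).aw (R n) (ok n).1 ((H.up.lh n).aw (ok n) (sb n))
  H.xl_qa (s := fun n => (h.y n).aw (h.G n).F (ξ₂ n)) (s' := fun b => b.aw g.G₀.F ξ₀)
    (H.up.bk.qa hw c fun n => (p n).2) fun n => (p n).1

theorem xl_qj {d : ∀ n, Co (X n) lam r} {s : ∀ n, X n → Eu lam} {a e : ∀ n, SW (X n)}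
    {l : ∀ n, List (La (X n))} {d₂ : ∀ n, Co (Z n) lam r} {s₂ : ∀ n, Z n → Eu lam}
    {a₂ e₂ : ∀ n, SW (Z n)} {l₂ : ∀ n, List (La (Z n))} {d₀ s₀ a₀ e₀ l₀}
    (cd : g.cC h.x d fun _ => d₀) (cs : g.FC h.x s s₀) (ca : g.cS h.x a fun _ => a₀)
    (ce : g.cS h.x e fun _ => e₀) (cl : FL (g.cLa h.x) l fun _ => l₀)
    (Rd : ∀ n, CoR univ (h.φ n) (h.v n) (d n) (d₂ n)) (Rs : ∀ n, SR univ (h.φ n) (h.v n) (s n) (s₂ n))
    (Ra : ∀ n, SWR univ (h.φ n) (a n) (a₂ n)) (Re : ∀ n, SWR univ (h.φ n) (e n) (e₂ n))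
    (Rl : ∀ n, List.Forall₂ (LaR univ (h.φ n)) (l n) (l₂ n))
    (ok : ∀ n, (Xi.qj (d₂ n) (s₂ n) (a₂ n) (e₂ n) (l₂ n)).OK (h.G n).F)
    (z : ∀ n, CoZ (h.G n).F.μ (h.O n) (d₂ n)) :
    XL k₀ u (fun n => opL (wd ((h.y n).la (h.G n).F)
      ((h.y n).qj (h.G n).F (d₂ n) (s₂ n) (a₂ n) (e₂ n)) (l₂ n) (k₂ n).x0))
      (opL (wd (b.la g.G₀.F) (b.qj g.G₀.F d₀ s₀ a₀ e₀) l₀ k₀.x0)) :=
  have p := fun n => pb_vq (H.up.pb n) (Rd n) (Rs n) (Ra n) (Re n) (Rl n) (ok n) (z n)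
    ((H.up.lh n).vq (ok n).1 (ok n).2.1 (ok n).2.2.1 (ok n).2.2.2.1 (ok n).2.2.2.2)
  H.xl_qa (s := fun n => wd ((h.y n).la (h.G n).F)
      ((h.y n).qj (h.G n).F (d₂ n) (s₂ n) (a₂ n) (e₂ n)) (l₂ n))
    (s' := fun b => wd (b.la g.G₀.F) (b.qj g.G₀.F d₀ s₀ a₀ e₀) l₀)
    (H.up.bk.qq cd cs ca ce cl fun n => (p n).2) fun n => (p n).1

/-- **the fields of the cuts converge** -/
theorem lim {σ : ∀ n, CL ((k₂ n).H (h.B n) (h.y n).m) ((k₂ n).H (h.B n) (h.y n).m)}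
    {σ₀ : CL (k₀.H g.B₀ b.m) (k₀.H g.B₀ b.m)} (a : Lk g.l (Rr k₀ u k₂) σ σ₀)
    (c : IsCompactOperator σ₀) {ψ : ∀ n, (k₂ n).H (h.B n) (h.y n).m}
    (s : ∀ n, ‖ψ n‖ = 1 ∧ (k₂ n).T (h.B n) (h.G n).F (h.y n).m (h.y n).W (ψ n) = σ n (ψ n)) :
    ∃ χ : k₀.H g.B₀ b.m, (‖χ‖ = 1 ∧ k₀.T g.B₀ g.G₀.F b.m b.W χ = σ₀ χ) ∧
      CLim (N := fun n => (h.y n).m.N) g.l b.m.J (fun n => ga u n k₀.x0) (fun n => ψ n) χ := by
  obtain ⟨χ, t, h1, h0⟩ := (H.lk_T.sub a).lim (Hol14.fr_sub H.up.bk.ok.B₀ H.lb.lim.adm.ok H.ok₀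
    (Hol14.cn0_of H.lb.lim.adm.conn) c).1 (ψ := ψ) (H.nr.mono fun n q => (H.norm q _).trans (s n).1)
    fun n => sub_eq_zero.2 (s n).2
  refine ⟨χ, ⟨h1, sub_eq_zero.1 h0⟩, fun _ => 1,
    ((continuous_subtype_val.tendsto χ).comp t).congr' (H.nr.mono fun n q => ?_)⟩
  refine ((H.hi q).coe _).trans ?_
  show _ = LU (csE b.m.J ((1 : Circle) : ℂ) ∘L _) _
  rw [show csE b.m.J ((1 : Circle) : ℂ) = 1 from csL_one _]
  rfl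

end CK

end Crest.Agent.X212.Cut63
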